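import Crest.Agent.X212.Lin97.Gop

/-! Row 212, CRIT-LIN (helper97): the total space and the linear axioms. -/

set_option autoImplicit false
set_option linter.unusedSectionVars false
noncomputable section
open scoped Manifold ContDiff Topology InnerProductSpace
open MeasureTheory Set Function Filter

namespace Crest.Agent.X212.Lin97
open An An.Pre Cyf70 Nd18 Crt72 Sob92 Map77
open Wz78 (nab nabE SA)

variable {E3 : Type} [NormedAddCommGroup E3] [NormedSpace ℝ E3] [FiniteDimensional ℝ E3]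
  [MeasurableSpace E3] [BorelSpace E3]
  {H3 : Type} [TopologicalSpace H3] {I3 : ModelWithCorners ℝ E3 H3} [I3.Boundaryless]
  {Y : Type} [TopologicalSpace Y] [ChartedSpace H3 Y] [IsManifold I3 ∞ Y] [T2Space Y]
  [MeasurableSpace Y] [BorelSpace Y] [SecondCountableTopology Y] [CompactSpace Y]
  {κ : Type} [Fintype κ] {lam : Type} [Fintype lam]
  {D : YD I3 Y κ lam} {β : YC Y κ lam} {x : Y} {c : ℝ} {j k : ℕ}

section pt
variable {N : ℕ}
@[simp] theorem fa_eA (α : Fm κ (HS (Fin N))) : fa (eA κ N α) = up κ _ α := rfl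
@[simp] theorem fp_eA (α : Fm κ (HS (Fin N))) : fp (eA κ N α) = 0 := rfl
@[simp] theorem fa_eP (φ : Eu (Fin N)) : fa (eP κ N φ) = 0 := rfl
@[simp] theorem fp_eP (φ : Eu (Fin N)) : fp (eP κ N φ) = φ := rfl
@[simp] theorem fa_eG (m : HS (Fin N)) : fa (eG κ N m) = ij _ none m := rfl
@[simp] theorem fp_eG (m : HS (Fin N)) : fp (eG κ N m) = 0 := rfl
@[simp] theorem dw_up (α : Fm κ (HS (Fin N))) : dw κ _ (up κ _ α) = α := rfl
@[simp] theorem dw_ij (m : HS (Fin N)) : dw κ _ (ij _ none m) = 0 := fm_ext fun a => by simp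

theorem cf_ext {u v : Cf (Option κ) (Fin N)} (h1 : fa u none = fa v none)
    (h2 : ∀ a, fa u (some a) = fa v (some a)) (h3 : fp u = fp v) : u = v :=
  ext2 (fm_ext fun a => by cases a; exacts [h1, h2 _]) h3

variable (κ N) in
/-- the components -/
def rA : CL (Cf (Option κ) (Fin N)) (Fm κ (HS (Fin N))) := dw κ _ ∘L fa
variable (κ N) in
def rG : CL (Cf (Option κ) (Fin N)) (HS (Fin N)) := pj _ none ∘L fa
@[simp] theorem rA_apply (w : Cf (Option κ) (Fin N)) : rA κ N w = dw κ _ (fa w) := rfl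
@[simp] theorem rG_apply (w : Cf (Option κ) (Fin N)) : rG κ N w = fa w none := rfl

theorem inner_eA (α : Fm κ (HS (Fin N))) (w : Cf (Option κ) (Fin N)) :
    ⟪eA κ N α, w⟫_ℝ = 1 * ⟪α, rA κ N w⟫_ℝ := by
  rw [inner2]; simp [inner_fm (X := HS (Fin N)), Fintype.sum_option]

theorem inner_eP (φ : Eu (Fin N)) (w : Cf (Option κ) (Fin N)) :
    ⟪eP κ N φ, w⟫_ℝ = 1 * ⟪φ, fp w⟫_ℝ := by rw [inner2]; simp

theorem inner_eG (m : HS (Fin N)) (w : Cf (Option κ) (Fin N)) :
    ⟪eG κ N m, w⟫_ℝ = 1 * ⟪m, rG κ N w⟫_ℝ := by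
  rw [inner2]; simp [inner_fm (X := HS (Fin N)), Fintype.sum_option]

end pt

theorem maps_eA : Maps (pc D β) (ph D β) fun _ => eA κ β.m.N := fun x α e =>
  cf_ext (by simp [fa_ph_none]) (fun a => by simp [fa_ph_some, e]) (by simp [fp_ph])
theorem maps_eP : Maps (pv D β) (ph D β) fun _ => eP κ β.m.N := fun x α e =>
  cf_ext (by simp [fa_ph_none]) (fun a => by simp [fa_ph_some]) (by simp [fp_ph, e])
theorem maps_eG : Maps β.m.pg (ph D β) fun _ => eG κ β.m.N := fun x α e =>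
  cf_ext (by simp [fa_ph_none, e]) (fun a => by simp [fa_ph_some]) (by simp [fp_ph])
theorem maps_rA : Maps (ph D β) (pc D β) fun _ => rA κ β.m.N := fun x w e =>
  fm_ext fun a => by rw [rA_apply, ← fa_ph_some, e]; rfl
theorem maps_rP : Maps (ph D β) (pv D β) fun _ => fp := fun x w e => by rw [← fp_ph, e]
theorem maps_rG : Maps (ph D β) β.m.pg fun _ => rG κ β.m.N := fun x w e => by
  rw [rG_apply, ← fa_ph_none (D := D), e]

theorem rep_eA : D.F.Rep (D.F.mulH j (pc D β) (ph D β) fun _ => eA κ _) fun u x => eA κ _ (u x) :=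
  rep_mulH (Cb_const _) maps_eA
theorem rep_eP : D.F.Rep (D.F.mulH j (pv D β) (ph D β) fun _ => eP κ _) fun u x => eP κ _ (u x) :=
  rep_mulH (Cb_const _) maps_eP
theorem rep_eG : D.F.Rep (D.F.mulH j β.m.pg (ph D β) fun _ => eG κ _) fun u x => eG κ _ (u x) :=
  rep_mulH (Cb_const _) maps_eG
theorem rep_rA : D.F.Rep (D.F.mulH j (ph D β) (pc D β) fun _ => rA κ _) fun u x => rA κ _ (u x) :=
  rep_mulH (Cb_const _) maps_rA
theorem rep_rP : D.F.Rep (D.F.mulH j (ph D β) (pv D β) fun _ => fp) fun u x => fp (u x) :=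
  rep_mulH (Cb_const _) maps_rP
theorem rep_rG : D.F.Rep (D.F.mulH j (ph D β) β.m.pg fun _ => rG κ _) fun u x => rG κ _ (u x) :=
  rep_mulH (Cb_const _) maps_rG

theorem emb_apply (z : CC D β j × GG D β j) : emb D β c j z =
    c • D.F.mulH j _ _ (fun _ => eA κ _) z.1.1 + D.F.mulH j _ _ (fun _ => eP κ _) z.1.2 +
      c • D.F.mulH j _ _ (fun _ => eG κ _) z.2 := rfl

theorem pt_apply (y : SP D β) : pt D β j y = (D.F.toH j _ y.1, D.F.toH j _ y.2) := rfl

variable (c) in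
/-- the section of the total bundle -/
def embS (y : SP D β) (m : Sec I3 β.m.pg) : Sec I3 (ph D β) :=
  c • ⟨_, RepT_mem (rep_eA (j := 0)) y.1⟩ + ⟨_, RepT_mem (rep_eP (j := 0)) y.2⟩ +
    c • ⟨_, RepT_mem (rep_eG (j := 0)) m⟩

theorem embS_val (y : SP D β) (m : Sec I3 β.m.pg) (x : Y) : (embS c y m).1 x =
    c • eA κ _ (y.1.1 x) + eP κ _ (y.2.1 x) + c • eG κ _ (m.1 x) := rfl

theorem emb_pt (y : SP D β) (m : Sec I3 β.m.pg) :
    emb D β c j (pt D β j y, D.F.toH j _ m) = D.F.toH j _ (embS c y m) := by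
  simp only [emb_apply, pt_apply, RepT_toH rep_eA, RepT_toH rep_eP, RepT_toH rep_eG, embS, map_add,
    map_smul]

theorem dense_pt : DenseRange (pt D β j) := (D.F.dense_toH j _).prodMap (D.F.dense_toH j _)

theorem clm_ext3 {X : Type} [NormedAddCommGroup X] [NormedSpace ℝ X]
    {A B : CC D β j × GG D β k →L[ℝ] X}
    (h : ∀ y m, A (pt D β j y, D.F.toH k _ m) = B (pt D β j y, D.F.toH k _ m)) : A = B :=
  ContinuousLinearMap.ext fun z => congrFun ((dense_pt.prodMap (D.F.dense_toH k _)).equalizer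
    A.continuous B.continuous (funext fun w => h w.1 w.2)) z

variable (D β c j) in
/-- the inverse of `emb` -/
def inv : XX D β j →L[ℝ] CC D β j × GG D β j :=
  ((c⁻¹ • D.F.mulH j _ _ fun _ => rA κ _).prod (D.F.mulH j _ _ fun _ => fp)).prod
    (c⁻¹ • D.F.mulH j _ _ fun _ => rG κ _)

theorem inv_apply (w : XX D β j) : inv D β c j w =
    ((c⁻¹ • D.F.mulH j _ _ (fun _ => rA κ _) w, D.F.mulH j _ _ (fun _ => fp) w),
      c⁻¹ • D.F.mulH j _ _ (fun _ => rG κ _) w) := rfl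

theorem inv_emb (hc : c ≠ 0) (z : CC D β j × GG D β j) : inv D β c j (emb D β c j z) = z := by
  refine DFunLike.congr_fun (clm_ext3 (A := inv D β c j ∘L emb D β c j)
    (B := ContinuousLinearMap.id ℝ _) fun y m => ?_) z
  rw [ContinuousLinearMap.comp_apply, emb_pt, inv_apply,
    RepT_toH' rep_rA _ (c • y.1) (funext fun x => by simp [embS_val]),
    RepT_toH' rep_rP _ y.2 (funext fun x => by simp [embS_val]),
    RepT_toH' rep_rG _ (c • m) (funext fun x => by simp [embS_val]), map_smul, map_smul,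
    inv_smul_smul₀ hc, inv_smul_smul₀ hc]
  rfl

theorem emb_inv (hc : c ≠ 0) (w : XX D β j) : emb D β c j (inv D β c j w) = w := by
  rw [inv_apply, emb_apply, map_smul, map_smul, smul_inv_smul₀ hc, smul_inv_smul₀ hc]
  exact DFunLike.congr_fun (RepT_eq (RepT_add (RepT_add (RepT_comp rep_eA rep_rA)
    (RepT_comp rep_eP rep_rP)) (RepT_comp rep_eG rep_rG)) Rep_id fun u => funext fun x =>
      cf_ext (by simp) (fun a => by simp) (by simp)) w

variable (D β j) in
/-- the total space as an isomorphism -/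
def embE (hc : c ≠ 0) : (CC D β j × GG D β j) ≃L[ℝ] XX D β j :=
  ContinuousLinearEquiv.equivOfInverse (emb D β c j) (inv D β c j) (inv_emb hc) (emb_inv hc)

theorem emb_bij (hc : c ≠ 0) : Bijective (emb D β c j) := (embE D β j hc).bijective

theorem incl_emb (h : j ≤ k) (z : CC D β k × GG D β k) :
    D.F.incl k j _ (emb D β c k z) = emb D β c j (iC D β k j z.1, D.F.incl k j _ z.2) := by
  simp only [emb_apply, map_add, map_smul, incl_mulH (Cb_const _) maps_eA h,
    incl_mulH (Cb_const _) maps_eP h, incl_mulH (Cb_const _) maps_eG h]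
  rfl

theorem inner_emb (hc : c ≠ 0) (z z' : CC D β 0 × GG D β 0) :
    ⟪emb D β c 0 z, emb D β c 0 z'⟫_ℝ =
      c ^ 2 * ⟪z.1.1, z'.1.1⟫_ℝ + ⟪z.1.2, z'.1.2⟫_ℝ + c ^ 2 * ⟪z.2, z'.2⟫_ℝ := by
  have e1 := inner_rep (rep_eA (D := D) (β := β)) Rep_id Rep_id rep_rA 1 (fun _ _ _ => inner_eA _ _)
    z.1.1 (emb D β c 0 z')
  have e2 := inner_rep (rep_eP (D := D) (β := β)) Rep_id Rep_id rep_rP 1 (fun _ _ _ => inner_eP _ _)
    z.1.2 (emb D β c 0 z')
  have e3 := inner_rep (rep_eG (D := D) (β := β)) Rep_id Rep_id rep_rG 1 (fun _ _ _ => inner_eG _ _)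
    z.2 (emb D β c 0 z')
  simp only [ContinuousLinearMap.id_apply, one_mul] at e1 e2 e3
  conv_rhs => rw [← inv_emb hc z', inv_apply]
  rw [emb_apply z]
  simp only [inner_add_left, real_inner_smul_left, real_inner_smul_right, e1, e2, e3]
  field_simp

theorem Hy.val_emb (h : Hy D β) (hk : 4 ≤ k) (z : CC D β k × GG D β k) (x : Y) :
    D.F.val k _ (emb D β c k z) x = c • eA κ _ (D.F.val k _ z.1.1 x) +
      eP κ _ (D.F.val k _ z.1.2 x) + c • eG κ _ (D.F.val k _ z.2 x) := by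
  simp only [emb_apply, val_add, val_smul, Pi.add_apply, Pi.smul_apply,
    val_mulH h.sup hk (Cb_const _) maps_eA, val_mulH h.sup hk (Cb_const _) maps_eP,
    val_mulH h.sup hk (Cb_const _) maps_eG]

end Crest.Agent.X212.Lin97
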