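import Crest.Agent.X212.Lin97.Main

/-! Row 212, CRIT-LIN (helper97): `SplStmt`. -/

set_option autoImplicit false
set_option linter.unusedSectionVars false
noncomputable section
open scoped Manifold ContDiff Topology InnerProductSpace
open MeasureTheory Set Function Filter

namespace Crest.Agent.X212.Lin97
open An An.Pre Cyf70 Nd18 Crt72 Sob92 Map77
open Wz78 (nab nabE SA adc_apply opL_adc adcL)

variable {E3 : Type} [NormedAddCommGroup E3] [NormedSpace ℝ E3] [FiniteDimensional ℝ E3]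
  [MeasurableSpace E3] [BorelSpace E3]
  {H3 : Type} [TopologicalSpace H3] {I3 : ModelWithCorners ℝ E3 H3} [I3.Boundaryless]
  {Y : Type} [TopologicalSpace Y] [ChartedSpace H3 Y] [IsManifold I3 ∞ Y] [T2Space Y]
  [MeasurableSpace Y] [BorelSpace Y] [SecondCountableTopology Y] [CompactSpace Y]
  {κ : Type} [Fintype κ] {lam : Type} [Fintype lam]
  {D : YD I3 Y κ lam} {β : YC Y κ lam} {x : Y} {c : ℝ} {j k l : ℕ}

section alg
variable {N : ℕ}

theorem adc_swap (ξ η : HS (Fin N)) : adc (opL ξ) η = -adc (opL η) ξ := by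
  rw [adc_apply, adc_apply, ← map_neg, neg_sub]

theorem jacobi (ξ α η : HS (Fin N)) : adc (opL ξ) (adc (opL α) η) =
    adc (opL (adc (opL ξ) α)) η + adc (opL α) (adc (opL ξ) η) := by
  rw [opL_adc, Wz78.adc_lie]; simp

variable (κ N) in
/-- the bracket of a form and a section -/
def brA : CL (Fm κ (HS (Fin N))) (CL (HS (Fin N)) (Fm κ (HS (Fin N)))) :=
  -∑ a, post (ij _ a) (adcL ∘L opL ∘L pj _ a)

theorem brA_apply (α : Fm κ (HS (Fin N))) (ξ : HS (Fin N)) :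
    brA κ N α ξ = WithLp.toLp 2 fun a => -adc (opL (α a)) ξ := fm_ext fun a => by
  simp only [brA, _root_.neg_apply, _root_.sum_apply, post_apply, PiLp.neg_apply]
  rw [sum_ij]
  rfl

end alg

/-- the quadratic parts of the gauge action -/
abbrev bA (D : YD I3 Y κ lam) (β : YC Y κ lam) (j : ℕ) :=
  D.F.lift₂ j (j + 1) (pc D β) β.m.pg (pc D β) j fun (α : Y → Fm κ β.m.A) ξ y =>
    WithLp.toLp 2 fun a => -adc (opL (α y a)) (ξ y)
abbrev bP (D : YD I3 Y κ lam) (β : YC Y κ lam) (j : ℕ) :=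
  D.F.lift₂ j (j + 1) (pv D β) β.m.pg (pv D β) j fun φ ξ y => opL (ξ y) (φ y)

theorem dv_apply (v : CC D β j) (ξ : GG D β (j + 1)) :
    dv D β j v ξ = d0 D β 1 j ξ + (bA D β j v.1 ξ, bP D β j v.2 ξ) := rfl

theorem xC_apply (η : Y → β.m.A) (v : CC D β j) : xC D β η j v =
    (D.F.mulH j _ _ (fun y => onv κ (xa β η y)) v.1, D.F.mulH j _ _ (xs β η) v.2) := rfl

section
variable (η : Sec I3 β.m.pg)

theorem cb_xa : D.F.Cb (xa β η.1) := Cb_neg (Cb_clm (adcL ∘L opL) (Cb_of_compact η.2.1))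

theorem cb_onv (ι : Type) [Fintype ι] : D.F.Cb fun y => onv ι (xa β η.1 y) :=
  Cls.tp (K := cb (fun _ : Unit => D.F.toPre) univ) (f := fun a _ y => xa β η.1 y ∘L pj _ a)
    (fun _ _ _ => Cb_comp (cb_xa η) (Cb_const _)) () trivial

theorem cb_xs : D.F.Cb (xs β η.1) := Cb_sub (Cb_const _) (Cb_clm opL (Cb_of_compact η.2.1))

theorem xa_g {ζ : β.m.A} (hζ : ζ ∈ β.m.gS x) : xa β η.1 x ζ ∈ β.m.gS x :=
  Submodule.neg_mem _ (Wz78.adc_mem (pg_g (η.2.2.2 x)) hζ)

theorem maps_xa : Maps β.m.pg β.m.pg (xa β η.1) := fun _ _ e => Wz78.pg_of_mem (xa_g η (pg_g e))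

theorem maps_onv : Maps (pc D β) (pc D β) fun y => onv κ (xa β η.1 y) := fun x α e =>
  pc_fix (fun a => xa_g η (pc_g e a)) fun a => by
    simp only [onv_apply, ← map_smul, ← map_sum, pc_P e]

theorem rep_xG : D.F.Rep (xG D β η.1 j) fun u x => xa β η.1 x (u x) :=
  rep_mulH (cb_xa η) (maps_xa η)

theorem rep_xA : D.F.Rep (D.F.mulH j (pc D β) (pc D β) fun y => onv κ (xa β η.1 y))
    fun u x => onv κ (xa β η.1 x) (u x) := rep_mulH (cb_onv η κ) (maps_onv η)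

end

namespace Hy
variable (h : Hy D β)
include h

theorem rep_bA (hj : 7 ≤ j) : D.F.Rep₂ (bA D β j) fun (α : Y → Fm κ β.m.A) ξ y =>
    WithLp.toLp 2 fun a => -adc (opL (α y a)) (ξ y) := by
  have := rep_bilH (p := pc D β) (q := β.m.pg) (r := pc D β) h.sup
    ((Lev.self hj).of_le le_rfl j.le_succ le_rfl) (Cb_const (brA κ β.m.N)) fun x α ξ e e' => by
      rw [brA_apply]
      refine pc_fix (fun a => Submodule.neg_mem _ (Wz78.adc_mem (pc_g e a) (pg_g e'))) fun a => ?_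
      simp only [adc_swap (α _), neg_neg, ← map_smul, ← map_sum, pc_P e]
  simp only [brA_apply] at this
  rwa [bA, Rep₂_lift₂_eq this]

theorem rep_bP (hj : 7 ≤ j) : D.F.Rep₂ (bP D β j) fun φ ξ y => opL (ξ y) (φ y) :=
  rep_bilH (β := fun _ => (opL (κ := Fin β.m.N)).flip) h.sup
    ((Lev.self hj).of_le le_rfl j.le_succ le_rfl) (Cb_const _) fun _ _ _ e e' => h.pv_g (pg_g e') e

theorem rep_J : D.F.Rep (D.F.mulH j (pv D β) (pv D β) fun _ => β.m.J) fun u x => β.m.J (u x) :=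
  rep_mulH (Cb_const _) fun _ _ e => h.pv_J e

variable (η : Sec I3 β.m.pg)

theorem maps_xs : Maps (pv D β) (pv D β) (xs β η.1) := fun x v e => by
  simp only [xs, sub_apply, map_sub, h.pv_J e, h.pv_g (pg_g (η.2.2.2 x)) e]

theorem rep_xS : D.F.Rep (D.F.mulH j (pv D β) (pv D β) (xs β η.1)) fun u x => xs β η.1 x (u x) :=
  rep_mulH (cb_xs η) (h.maps_xs η)

theorem rep_xX : D.F.Rep (xX D β η.1 j)
    fun u x => sm2 (onv (Option κ) (xa β η.1 x)) (xs β η.1 x) (u x) :=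
  rep_mulH (Cb_pr2 (Cb_comp (cb_onv η _) (Cb_const _)) (Cb_comp (cb_xs η) (Cb_const _)))
    fun x w e => cf_ext
      (by rw [fa_ph_none, f2_sm2]; exact maps_xa η x _ (maps_rG x w e))
      (fun a => by
        rw [fa_ph_some, f2_sm2]
        exact congrArg (fun α : Fm κ β.m.A => α a) (maps_onv η x _ (maps_rA x w e)))
      (by rw [fp_ph, s2_sm2]; exact h.maps_xs η x _ (maps_rP x w e))

theorem emb_x (u : CC D β j) (m : GG D β j) :
    emb D β c j (xC D β η.1 j u, xG D β η.1 j m) = xX D β η.1 j (emb D β c j (u, m)) := by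
  have e1 := DFunLike.congr_fun (RepT_eq (RepT_comp rep_eA (rep_xA η)) (RepT_comp (h.rep_xX η) rep_eA)
    fun u => funext fun x => cf_ext (by simp) (fun a => by simp) (by simp)) u.1
  have e2 := DFunLike.congr_fun (RepT_eq (RepT_comp rep_eP (h.rep_xS η))
    (RepT_comp (h.rep_xX η) rep_eP)
    fun u => funext fun x => cf_ext (by simp) (fun a => by simp) (by simp)) u.2
  have e3 := DFunLike.congr_fun (RepT_eq (RepT_comp rep_eG (rep_xG η)) (RepT_comp (h.rep_xX η) rep_eG)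
    fun u => funext fun x => cf_ext (by simp) (fun a => by simp) (by simp)) m
  simp only [ContinuousLinearMap.comp_apply] at e1 e2 e3
  simp only [emb_apply, xC_apply, map_add, map_smul, e1, e2, e3]

theorem incl_xX (hl : l ≤ j) (w : XX D β j) :
    D.F.incl j l _ (xX D β η.1 j w) = xX D β η.1 l (D.F.incl j l _ w) :=
  Rep_incl (h.rep_xX η) (h.rep_xX η) hl hl w

theorem skew_xX (v w : XX D β 0) : ⟪xX D β η.1 0 v, w⟫_ℝ = -⟪v, xX D β η.1 0 w⟫_ℝ := by
  refine (inner_rep (h.rep_xX η) Rep_id Rep_id (h.rep_xX η) (-1) (fun u u' x => ?_) v w).trans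
    (neg_one_mul _)
  have h1 := Wz78.g_skw (pg_g (η.2.2.2 x))
  have h2 : Skw β.m.J := h.hm.Jsk
  simp only [id, inner2, f2_sm2, s2_sm2, inner_fm (X := β.m.A), onv_apply, xa, xs, sub_apply,
    _root_.neg_apply, inner_neg_left, inner_neg_right, inner_sub_left, inner_sub_right,
    Wz78.adc_skw h1 _, h1 _, h2 _, Finset.sum_neg_distrib]
  ring

theorem bA_x (hj : 7 ≤ j) (α : D.F.H j (pc D β)) (ξ : GG D β (j + 1)) :
    D.F.mulH j _ _ (fun y => onv κ (xa β η.1 y)) (bA D β j α ξ) =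
      bA D β j (D.F.mulH j _ _ (fun y => onv κ (xa β η.1 y)) α) ξ +
        bA D β j α (xG D β η.1 (j + 1) ξ) := by
  induction α, ξ using H_ind₂ with
  | hP => exact isClosed_eq (by fun_prop) (by fun_prop)
  | h u v =>
    simp only [RepT_toH (rep_xA η), RepT_toH (rep_xG η), Rep₂_toH (h.rep_bA hj), ← map_add]
    refine congrArg _ (Subtype.ext (funext fun x => fm_ext fun a => ?_))
    simpa [xa, ← Wz78.adcL_apply, -opL_adc] using jacobi (η.1 x) (u.1 x a) (v.1 x)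

theorem bP_x (hj : 7 ≤ j) (φ : D.F.H j (pv D β)) (ξ : GG D β (j + 1)) :
    D.F.mulH j _ _ (xs β η.1) (bP D β j φ ξ) =
      bP D β j (D.F.mulH j _ _ (xs β η.1) φ) ξ + bP D β j φ (xG D β η.1 (j + 1) ξ) := by
  induction φ, ξ using H_ind₂ with
  | hP => exact isClosed_eq (by fun_prop) (by fun_prop)
  | h u v =>
    simp only [RepT_toH (h.rep_xS η), RepT_toH (rep_xG η), Rep₂_toH (h.rep_bP hj), ← map_add]
    refine congrArg _ (Subtype.ext (funext fun x => ?_))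
    have e := congrArg (fun T : En (Fin β.m.N) => T (u.1 x)) (Wz78.g_J (pg_g (v.2.2.2 x)))
    simp only [mul_apply_eq_comp] at e
    simp [xa, xs, e]

theorem cube_xX {t : ℝ}
    (hA : ∀ x, ∀ ζ ∈ β.m.gS x, xa β η.1 x (xa β η.1 x (xa β η.1 x ζ)) = t • xa β η.1 x ζ)
    (hS : ∀ x v, pv D β x v = v → xs β η.1 x (xs β η.1 x (xs β η.1 x v)) = t • xs β η.1 x v)
    (w : XX D β j) : xX D β η.1 j (xX D β η.1 j (xX D β η.1 j w)) = t • xX D β η.1 j w :=
  DFunLike.congr_fun (RepT_eq (RepT_comp (h.rep_xX η) (RepT_comp (h.rep_xX η) (h.rep_xX η)))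
    (RepT_smul t (h.rep_xX η)) fun u => funext fun x => cf_ext
      (by simpa using hA x _ (pg_g (maps_rG x _ (u.2.2.2 x))))
      (fun a => by simpa using hA x _ (pc_g (maps_rA x _ (u.2.2.2 x)) a))
      (by simpa using hS x _ (maps_rP x _ (u.2.2.2 x)))) w

variable {η} (h0 : dga D β η.1 = 0) (hΦ : ∀ y, opL (η.1 y) (β.Φ y) = β.m.J (β.Φ y))
include h0 hΦ

theorem xC_eq (hj : 7 ≤ j) (u : CC D β j) :
    xC D β η.1 j u = jv D β j u - dv D β j u (D.F.toH (j + 1) _ η) := by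
  have e1 := DFunLike.congr_fun (RepT_eq (rep_xA (j := j) η) (RepT_neg (Rep₂_right (h.rep_bA hj) η))
    fun u => funext fun x => fm_ext fun a => by simp [xa, adc_swap (η.1 x)]) u.1
  have e2 := DFunLike.congr_fun (RepT_eq (h.rep_xS (j := j) η)
    (RepT_sub h.rep_J (Rep₂_right (h.rep_bP hj) η)) fun u => rfl) u.2
  rw [xC_apply, h.jv_apply, dv_apply, d0_apply, RepT_toH' (h.rep_dga j) η 0 h0,
    RepT_toH' (h.rep_dgp j) η ⟨_, h.sec_J⟩ (funext hΦ), e1, e2]
  simp [add_comm (D.F.toH j _ _)]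

theorem d0_x (m : GG D β (j + 1)) :
    d0 D β c j (xG D β η.1 (j + 1) m) = xC D β η.1 j (d0 D β c j m) := by
  have e1 := DFunLike.congr_fun (RepT_eq (RepT_comp (h.rep_dga j) (rep_xG η))
    (RepT_comp (rep_xA η) (h.rep_dga j)) fun u => funext fun x => fm_ext fun a => by
      have s : SA I3 (xa β η.1) x := (cb_xa (D := D) η).choose_spec.1 x
      have e : nab I3 D.F.e (an β) a η.1 x = 0 :=
        neg_eq_zero.1 (congrArg (fun α : Fm κ β.m.A => α a) (congrFun h0 x))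
      have e' : nabE I3 D.F.e (an β) a (xa β η.1) x = 0 := by
        have := Wz78.nab_map (e := D.F.e) (A := an β) (A' := fun a y => Wz78.ad _ (an β a y))
          (-(adcL ∘L opL)) a (x := x) (u := η.1) (by
            change an β a x * xa β η.1 x - xa β η.1 x * an β a x = -adc (opL (adc (cn β a x) _))
            rw [opL_adc, Wz78.adc_lie]
            simp only [xa, mul_neg, neg_mul]
            exact (sub_neg_eq_add _ _).trans ((neg_add_eq_sub _ _).trans (neg_sub _ _).symm))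
          (η.2.1 x)
        rw [e, map_zero] at this
        exact this
      simp [dga, Wz78.nab_app' a s (u.2.1 x), e']) m
  have e2 := DFunLike.congr_fun (RepT_eq (RepT_comp (h.rep_dgp j) (rep_xG η))
    (RepT_comp (h.rep_xS η) (h.rep_dgp j)) fun u => funext fun x => by
      have e := congrArg (fun T : En (Fin β.m.N) => T (β.Φ x)) (Wz78.g_J (pg_g (u.2.2.2 x)))
      simp only [mul_apply_eq_comp] at e
      simp [dgp, xa, xs, e, hΦ]) m
  simp only [ContinuousLinearMap.comp_apply] at e1 e2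
  simp only [d0_apply, xC_apply, map_smul, e1, e2]

theorem dv_x (hj : 7 ≤ j) {v : CC D β j} (hv : xC D β η.1 j v = 0) (ξ : GG D β (j + 1)) :
    xC D β η.1 j (dv D β j v ξ) = dv D β j v (xG D β η.1 (j + 1) ξ) := by
  rw [xC_apply, Prod.mk_eq_zero] at hv
  rw [dv_apply, dv_apply, map_add, h.d0_x h0 hΦ, xC_apply _ (bA D β j _ _, _), h.bA_x η hj, h.bP_x η hj,
    hv.1, hv.2]
  simp

end Hy

theorem spl_of (hk : 7 ≤ k) {act : ActT D k} {sf : SfT D} {o : XY D} (h : Hy D o.1)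
    {ξ : GG D o.1 (k + 2)} {η : Sec I3 o.1.m.pg} (e : D.F.toH _ _ η = ξ) (h0 : dga D o.1 η.1 = 0)
    (hΦ : ∀ y, opL (η.1 y) (o.1.Φ y) = o.1.m.J (o.1.Φ y)) {t : ℝ}
    (hA : ∀ x, ∀ ζ ∈ o.1.m.gS x,
      xa o.1 η.1 x (xa o.1 η.1 x (xa o.1 η.1 x ζ)) = -(t ^ 2) • xa o.1 η.1 x ζ)
    (hS : ∀ x v, pv D o.1 x v = v →
      xs o.1 η.1 x (xs o.1 η.1 x (xs o.1 η.1 x v)) = -(t ^ 2) • xs o.1 η.1 x v) :
    (gm D k act sf).Spl o ξ t := by
  have hv : D.F.val _ _ ξ = η.1 := e ▸ val_toH h.sup (by omega) η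
  obtain ⟨η, hη⟩ := η
  subst hv
  refine ⟨fun u => ?_, fun u m => ?_, fun u m => ?_, fun y => ?_, fun v w => ?_, fun v => ?_,
    fun m => ?_, fun v ζ hv => ?_⟩
  · have := h.xC_eq h0 hΦ (j := k + 1) (by omega) u
    rw [e] at this
    exact this
  · exact (congrArg (D.F.incl (k + 1) 1 _) (h.emb_x (c := 1 / 2) ⟨_, hη⟩ u m)).trans
      (h.incl_xX ⟨_, hη⟩ (by omega) _)
  · exact (congrArg (D.F.incl k 0 _) (h.emb_x (c := 2) ⟨_, hη⟩ u m)).trans
      (h.incl_xX ⟨_, hη⟩ k.zero_le _)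
  · exact h.incl_xX ⟨_, hη⟩ zero_le_one y
  · exact h.skew_xX ⟨_, hη⟩ v w
  · exact h.cube_xX ⟨_, hη⟩ hA hS v
  · exact h.d0_x h0 hΦ m
  · exact h.dv_x h0 hΦ (j := k + 1) (by omega) hv ζ

/-- a solution of `d0 ξ = J` is a smooth parallel section -/
theorem Hy.fix (h : Hy D β) {ξ : GG D β (j + 1)} (e : dv D β j 0 ξ = jv D β j 0) :
    ∃ η : Sec I3 β.m.pg, D.F.toH _ _ η = ξ ∧ dga D β η.1 = 0 ∧
      ∀ y, opL (η.1 y) (β.Φ y) = β.m.J (β.Φ y) := by
  obtain ⟨C, hF, hA⟩ := h.good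
  rw [dv_zero, d0_apply, h.jv_apply, one_smul, Prod.snd_zero, map_zero, zero_add, Prod.mk.injEq] at e
  have e1 := DFunLike.congr_fun (RepT_eq (h.rep_A0 j) (RepT_add (RepT_comp rep_iH1 (h.rep_dga j))
    (RepT_comp rep_iH2 (RepT_smul 2 (h.rep_dgp j)))) fun u => funext (h.app_A0 u)) ξ
  simp only [ContinuousLinearMap.comp_apply, add_apply, smul_apply, e.1, e.2, map_zero, zero_add,
    ← map_smul, RepT_toH rep_iH2] at e1
  obtain ⟨η, h1, h2⟩ := Ell97.sec_of_eq hF hA cliffL_A0 e1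
  have h3 := fun y => (h.app_A0 η y).symm.trans (congrFun h2 y)
  exact ⟨η, h1, funext fun y => by simpa using congrArg (f2 _ _) (h3 y),
    fun y => by simpa [dgp] using congrArg (s2 _ _) (h3 y)⟩

/-- **SPL** -/
theorem spl (D : YD I3 Y κ lam) : SplStmt D := by
  intro hY k hk act sf
  refine ⟨fun o hJ => ?_, fun o ξ hJ e => ?_⟩ <;> have h : Hy D o.1 := ⟨hY, o.2⟩ <;>
    have JJ : ∀ v, o.1.m.J (o.1.m.J v) = -v := fun v =>
      congrArg (fun T : En (Fin o.1.m.N) => T v) h.hm.Jsq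
  · exact spl_of hk h (η := 0) (map_zero _) (funext fun y => fm_ext fun a => by simp [dga, nab])
      (fun y => by simp [h.jv_zero.1 hJ y]) (fun x ζ _ => by simp [xa, adc_apply])
      fun x v _ => by simp [xs, JJ]
  obtain ⟨η, h1, h0, hΦ⟩ := h.fix e
  obtain ⟨y, hy⟩ := not_forall.1 (mt h.jv_zero.2 hJ)
  have g := fun x => pg_g (η.2.2.2 x)
  have n : ∀ x, ‖η.1 x‖ = 4 := fun x => by
    have e1 := h.norm_g (g y)
    have e2 : ‖o.1.m.J (o.1.Φ y)‖ = ‖o.1.Φ y‖ := by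
      have : Skw o.1.m.J := h.hm.Jsk
      rw [norm_eq_sqrt_real_inner, this, JJ, inner_neg_right, neg_neg, ← norm_eq_sqrt_real_inner]
    rw [hΦ, e2, h.norm_par η.2.1 h0 y x] at e1
    have := mul_right_cancel₀ (norm_ne_zero_iff.2 hy) ((one_mul _).trans e1)
    linarith
  refine spl_of hk h h1 h0 hΦ (fun x ζ hζ => ?_) fun x v hv => ?_
  · have e1 : adc (opL (η.1 x)) (adc (opL (η.1 x)) ζ) =
        (1 / 4 : ℝ) • (⟪η.1 x, ζ⟫_ℝ • η.1 x - ‖η.1 x‖ ^ 2 • ζ) :=
      (Std94.adc_adc h.hB (h.px x) (g x) hζ :)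
    have e2 : adc (opL (η.1 x)) (η.1 x) = 0 := by simp [adc_apply]
    simp only [xa, _root_.neg_apply, map_neg, neg_neg, e1, n, map_smul, map_sub, e2]
    module
  · have e1 : opL (η.1 x) * opL (η.1 x) = (-‖η.1 x‖ ^ 2 / 16) • o.1.m.p x :=
      (Std94.g_sq h.hB (h.px x) (g x) :)
    have e2 : ∀ w, pv D o.1 x w = w → opL (η.1 x) (opL (η.1 x) w) = -w := fun w hw => by
      rw [← mul_apply_eq_comp, e1, n, smul_apply, h.p_pv hw]
      norm_num
    have e3 : ∀ w, opL (η.1 x) (o.1.m.J w) = o.1.m.J (opL (η.1 x) w) := fun w =>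
      (congrArg (fun T : En (Fin o.1.m.N) => T w) (Wz78.g_J (g x))).symm
    simp only [xs, sub_apply, map_sub, e3, JJ, e2 v hv, map_neg]
    module

end Crest.Agent.X212.Lin97
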