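import Crest.Agent.X212.Lin97.Emb

/-! Row 212, CRIT-LIN (helper97): `LinStmt`. -/

set_option autoImplicit false
set_option linter.unusedSectionVars false
noncomputable section
open scoped Manifold ContDiff Topology InnerProductSpace
open MeasureTheory Set Function Filter

namespace Crest.Agent.X212.Lin97
open An An.Pre Cyf70 Nd18 Crt72 Sob92 Map77
open Wz78 (nab nabE SA)

variable {E3 : Type} [NormedAddCommGroup E3] [NormedSpace ℝ E3] [FiniteDimensional ℝ E3]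
  [MeasurableSpace E3] [BorelSpace E3]
  {H3 : Type} [TopologicalSpace H3] {I3 : ModelWithCorners ℝ E3 H3} [I3.Boundaryless]
  {Y : Type} [TopologicalSpace Y] [ChartedSpace H3 Y] [IsManifold I3 ∞ Y] [T2Space Y]
  [MeasurableSpace Y] [BorelSpace Y] [SecondCountableTopology Y] [CompactSpace Y]
  {κ : Type} [Fintype κ] {lam : Type} [Fintype lam]
  {D : YD I3 Y κ lam} {β : YC Y κ lam} {x : Y} {c : ℝ} {j k l : ℕ}

theorem lf_eq (w : Y → Cf (Option κ) (Fin β.m.N)) {α : Y → Fm κ β.m.A} {φ : Y → β.m.V}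
    {m : Y → β.m.A} (h1 : ∀ z, (2 : ℝ) • dw κ _ (fa (w z)) = α z) (h2 : ∀ z, fp (w z) = φ z)
    (h3 : ∀ z, (2 : ℝ) • fa (w z) none = m z) (y : Y) : lf D β w y =
    (2 : ℝ) • eA κ _ (deriv (F := Fm κ β.m.A) (fun ε : ℝ => (YF.z0 D).gA (vy β (ε • α) (ε • φ)) y) 0
      + (1 / 4 : ℝ) • dga D β m y) +
    eP κ _ (deriv (F := β.m.V) (fun ε : ℝ => (YF.z0 D).gP (vy β (ε • α) (ε • φ)) y) 0 + dgp β m y) +
    (2 : ℝ) • eG κ _ ((1 / 4 : ℝ) • sga D β α y + sgp β φ y) := by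
  obtain rfl : (fun z => (2 : ℝ) • dw κ _ (fa (w z))) = α := funext h1
  obtain rfl : (fun z => fp (w z)) = φ := funext h2
  obtain rfl : (fun z => (2 : ℝ) • fa (w z) none) = m := funext h3
  rfl

theorem rep_lf (ho : OpY D β) (j : ℕ) :
    D.F.Rep (D.F.lift (j + 1) j (ph D β) (ph D β) (lf D β)) (lf D β) :=
  let ⟨_, _, _, hA, _, e, _⟩ := ho
  rep_lift (rep_OpH hA j).1 e

theorem d0_apply (η : GG D β (j + 1)) : d0 D β c j η =
    (c • D.F.lift (j + 1) j _ _ (dga D β) η, D.F.lift (j + 1) j _ _ (dgp β) η) := rfl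

theorem sg_apply (u : CC D β (j + 1)) : sg D β j u =
    (1 / 4 : ℝ) • D.F.lift (j + 1) j _ _ (sga D β) u.1 + D.F.lift (j + 1) j _ _ (sgp β) u.2 := rfl

theorem dv_zero : dv D β j 0 = d0 D β 1 j := by
  simp only [Crt72.dv, Prod.fst_zero, Prod.snd_zero, map_zero]
  exact add_zero _

theorem deriv_ray {S X X' Z : Type} [AddCommGroup S] [Module ℝ S] [NormedAddCommGroup X]
    [NormedSpace ℝ X] [NormedAddCommGroup X'] [NormedSpace ℝ X'] [NormedAddCommGroup Z]
    [NormedSpace ℝ Z] (p : S →ₗ[ℝ] X) {T : X → X'} (hT : ContDiff ℝ ∞ T) (L : X' →L[ℝ] Z) (y : S)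
    {g : ℝ → Z} (e : ∀ ε : ℝ, L (T (p (ε • y))) = g ε) : deriv g 0 = L (fderiv ℝ T 0 (p y)) := by
  have := (hT.differentiable (by simp) 0).hasFDerivAt.comp_hasDerivAt_of_eq 0
    ((hasDerivAt_id (0 : ℝ)).smul_const (p y)) (by simp)
  rw [← funext e]
  simpa only [one_smul, map_smul, Function.comp_def, id] using (L.hasFDerivAt.comp_hasDerivAt 0 this).deriv

namespace Hy
variable (h : Hy D β)
include h

theorem fr_lf (ho : OpY D β) (j : ℕ) :
    Fred93.Fr (D.F.lift (j + 1) j (ph D β) (ph D β) (lf D β)) 0 := by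
  obtain ⟨σ, B, C, hA, hc, e, hs⟩ := ho
  rw [lift_eq (rep_OpH hA j).1 e]
  exact fr_symm h.tame.choose_spec hA hc (fun u w => by rw [e, e]; exact hs u w) j

/-- the extended Hessian is the operator `lf` -/
theorem key (ho : OpY D β) (hk : 4 ≤ k) {T : CC D β (k + 1) → CC D β k}
    (hT : RpT D β (YF.z0 D) (k + 1) k T) :
    D.F.lift (k + 1) k (ph D β) (ph D β) (lf D β) ∘L emb D β (1 / 2) (k + 1) = emb D β 2 k ∘L
      ((fderiv ℝ T 0).coprod (d0 D β (1 / 4) k)).prod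
        (sg D β k ∘L ContinuousLinearMap.fst ℝ _ _) := by
  refine clm_ext3 fun y m => val_injective h.sup hk (funext fun x => ?_)
  have e1 : deriv (F := Fm κ β.m.A)
      (fun ε : ℝ => (YF.z0 D).gA (vy β (ε • y.1.1) (ε • y.2.1)) x) 0 =
        D.F.val k _ (fderiv ℝ T 0 (pt D β (k + 1) y)).1 x :=
    deriv_ray _ hT.1 (D.F.ev k _ x ∘L ContinuousLinearMap.fst ℝ _ _) y fun ε =>
      (hT.2 (ε • y) x).1.trans (h.cf (ε • y)).pc_gA
  have e2 : deriv (F := β.m.V)
      (fun ε : ℝ => (YF.z0 D).gP (vy β (ε • y.1.1) (ε • y.2.1)) x) 0 =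
        D.F.val k _ (fderiv ℝ T 0 (pt D β (k + 1) y)).2 x :=
    deriv_ray _ hT.1 (D.F.ev k _ x ∘L ContinuousLinearMap.snd ℝ _ _) y fun ε =>
      (hT.2 (ε • y) x).2.trans (h.cf (ε • y)).pv_gP
  rw [ContinuousLinearMap.comp_apply, emb_pt, RepT_toH (rep_lf ho k), val_toH h.sup hk,
    ContinuousLinearMap.comp_apply, h.val_emb hk]
  refine (lf_eq _ (α := y.1.1) (φ := y.2.1) (m := m.1) (fun z => by simp [embS_val, smul_smul])
    (fun z => by simp [embS_val]) (fun z => by simp [embS_val, smul_smul]) x).trans ?_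
  simp only [e1, e2, ContinuousLinearMap.prod_apply, ContinuousLinearMap.coprod_apply,
    ContinuousLinearMap.comp_apply, ContinuousLinearMap.coe_fst', Prod.fst_add, Prod.snd_add,
    d0_apply, sg_apply, val_add, val_smul, Pi.add_apply, Pi.smul_apply, pt_apply,
    RepT_toH (h.rep_dga k), RepT_toH (h.rep_dgp k), RepT_toH (h.rep_sga k), RepT_toH (h.rep_sgp k),
    val_toH h.sup hk]

theorem sec_J : (fun y => β.m.J (β.Φ y)) ∈ Sec I3 (pv D β) :=
  sec_mk (fun y => SA.clm β.m.J (h.sm_Φ y)) fun y => h.pv_J (h.pv_Φ y)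

theorem jv_apply (v : CC D β j) : jv D β j v =
    (0, D.F.mulH j _ _ (fun _ => β.m.J) v.2 + D.F.toH j _ ⟨_, h.sec_J⟩) := by
  rw [jv, ofS, dif_pos h.sec_J]

theorem jv_zero : jv D β j 0 = 0 ↔ ∀ y, β.Φ y = 0 := by
  rw [h.jv_apply, Prod.snd_zero, map_zero, zero_add, Prod.mk_eq_zero, and_iff_right rfl,
    map_eq_zero_iff _ (Ell97.toH_inj D.F j _), Subtype.ext_iff, funext_iff]
  refine forall_congr' fun y => ⟨fun e => ?_, fun e => by simp [e]⟩
  have e1 : β.m.J (β.Φ y) = 0 := e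
  have e2 : β.m.J * β.m.J = -1 := h.hm.Jsq
  have := congrArg (fun T : En (Fin β.m.N) => T (β.Φ y)) e2
  simpa [e1] using this

theorem iC_d0 (hl : l ≤ j) (η : GG D β (j + 1)) :
    iC D β j l (d0 D β c j η) = d0 D β c l (D.F.incl (j + 1) (l + 1) _ η) :=
  Prod.ext ((map_smul _ _ _).trans (congrArg (c • ·)
    (Rep_incl (h.rep_dga j) (h.rep_dga l) (by omega) hl η)))
    (Rep_incl (h.rep_dgp j) (h.rep_dgp l) (by omega) hl η)

theorem d0_incl (η : GG D β (k + 2)) : d0 D β (1 / 4) k (D.F.incl (k + 2) (k + 1) _ η) =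
    ((1 / 4 : ℝ) • D.F.incl (k + 1) k _ (dv D β (k + 1) 0 η).1,
      D.F.incl (k + 1) k _ (dv D β (k + 1) 0 η).2) := by
  refine (h.iC_d0 k.le_succ η).symm.trans ?_
  rw [dv_zero, d0_apply, d0_apply, one_smul]
  exact Prod.ext (map_smul (D.F.incl (k + 1) k _) _ _) rfl

theorem bij' (hn : (∃ y, β.Φ y ≠ 0) ∨ ¬Lin D.Z (cy β) univ) :
    Bijective (sg D β k ∘L dv D β (k + 1) 0) := by
  rw [dv_zero]; exact h.bij k hn

end Hy

theorem ij_emb (u : CC D β (k + 1)) (m : GG D β (k + 1)) :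
    D.F.incl 1 0 _ (D.F.incl (k + 1) 1 _ (emb D β (1 / 2) (k + 1) (u, m))) =
      D.F.incl k 0 _ (emb D β 2 k (((1 / 4 : ℝ) • D.F.incl (k + 1) k _ u.1,
        D.F.incl (k + 1) k _ u.2), (1 / 4 : ℝ) • D.F.incl (k + 1) k _ m)) := by
  rw [incl_incl (by omega) zero_le_one, ← incl_incl k.le_succ k.zero_le, incl_emb k.le_succ]
  simp only [emb_apply, map_smul, smul_smul]
  norm_num
  rfl

theorem orth_emb (e : CC D β k) (m : GG D β k) :
    ⟪D.F.incl k 0 _ (emb D β 2 k (e, 0)), D.F.incl k 0 _ (emb D β 2 k (0, m))⟫_ℝ = 0 := by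
  rw [incl_emb k.zero_le, incl_emb k.zero_le, inner_emb two_ne_zero]
  simp

theorem bb_apply (e : CC D β j) (u : CC D β l) : bb D β j l e u =
    ⟪D.F.incl j 0 _ e.1, D.F.incl l 0 _ u.1⟫_ℝ + ⟪D.F.incl j 0 _ e.2, D.F.incl l 0 _ u.2⟫_ℝ := rfl

theorem iC_apply (e : CC D β j) : iC D β j l e = (D.F.incl j l _ e.1, D.F.incl j l _ e.2) := rfl

theorem pair_emb (e : CC D β k) (u : CC D β (k + 1)) :
    bb D β k (k + 1) e u = ⟪D.F.incl k 0 _ (emb D β 2 k (e, 0)), D.F.incl k 0 _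
      (emb D β 2 k (((1 / 4 : ℝ) • D.F.incl (k + 1) k _ u.1, D.F.incl (k + 1) k _ u.2), 0))⟫_ℝ := by
  rw [incl_emb k.zero_le, incl_emb k.zero_le, inner_emb two_ne_zero]
  simp only [bb_apply, iC_apply, map_smul, incl_incl k.le_succ k.zero_le, real_inner_smul_right,
    map_zero, inner_zero_left]
  ring

theorem dense_smul {X X' : Type} [NormedAddCommGroup X] [NormedSpace ℝ X] [NormedAddCommGroup X']
    [NormedSpace ℝ X'] {f : X →L[ℝ] X'} (hf : DenseRange f) (hc : c ≠ 0) : DenseRange (c • f) :=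
  hf.mono <| by rintro _ ⟨v, rfl⟩; exact ⟨c⁻¹ • v, by simp [smul_smul, hc]⟩

theorem inj_smul {X X' : Type} [NormedAddCommGroup X] [NormedSpace ℝ X] [NormedAddCommGroup X']
    [NormedSpace ℝ X'] {f : X →L[ℝ] X'} (hf : Injective f) (hc : c ≠ 0) : Injective (c • f) :=
  (smul_right_injective X' hc).comp hf

/-- **LIN** -/
theorem lin (D : YD I3 Y κ lam) : LinStmt D := by
  intro hY ho k hk act sf
  have h : ∀ o : XY D, Hy D o.1 := fun o => ⟨hY, o.2⟩
  have hT : ∀ o : XY D, RpT D o.1 (YF.z0 D) (k + 1) k (mT D o.1 (YF.z0 D) (k + 1) k) := fun o =>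
    Classical.epsilon_spec ((ho o.1 o.2).2 k hk)
  have ky := fun o => (h o).key (ho o.1 o.2).1 (by omega) (hT o)
  have q : (1 / 4 : ℝ) ≠ 0 := by norm_num
  have q2 : (1 / 2 : ℝ) ≠ 0 := by norm_num
  refine ⟨fun o => (hT o).1, fun o z => ?_, fun o => ?_, fun o => ?_, fun o => ?_, fun o => ?_,
    fun o => ?_, fun o => ?_, fun o => dense_smul (denseRange_incl k.le_succ) q,
    fun o => inj_smul (incl_injective k.le_succ) q, fun o u m => ?_, fun o e m => ?_,
    fun o e u => ?_, fun o η => ?_, fun o hn => ?_⟩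
  · exact (Rep_incl (rep_lf (ho o.1 o.2).1 k) (rep_lf (ho o.1 o.2).1 0) (by omega) k.zero_le
      _).symm.trans (congrArg _ (DFunLike.congr_fun (ky o) z))
  · refine (((h o).fr_lf (ho o.1 o.2).1 k).conj (embE D o.1 (k + 1) q2)
      (embE D o.1 k two_ne_zero).symm).congr fun z => ?_
    exact ((embE D o.1 k two_ne_zero).symm_apply_eq.2 (DFunLike.congr_fun (ky o) z)).symm
  · exact (incl_injective k.zero_le).comp (emb_bij two_ne_zero).1
  · exact (denseRange_incl k.zero_le).comp (emb_bij two_ne_zero).2.denseRange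
      (D.F.incl k 0 _).continuous
  · exact (denseRange_incl (by omega)).comp (emb_bij q2).2.denseRange
      (D.F.incl (k + 1) 1 _).continuous
  · exact (dense_smul (denseRange_incl k.le_succ) q).prodMap (denseRange_incl k.le_succ)
  · exact (inj_smul (incl_injective k.le_succ) q).prodMap (incl_injective k.le_succ)
  · exact ij_emb u m
  · exact orth_emb e m
  · exact pair_emb e u
  · exact (h o).d0_incl η
  · exact (h o).bij' (hn.imp_left fun e => not_forall.1 (mt (h o).jv_zero.2 e))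

end Crest.Agent.X212.Lin97
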