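import Crest.Agent.X212.Lin97.Y

/-! Row 212, CRIT-LIN (helper97): the gauge operator on the cross-section and its adjoint. -/

set_option autoImplicit false
set_option linter.unusedSectionVars false
noncomputable section
open scoped Manifold ContDiff Topology InnerProductSpace
open MeasureTheory Set Function Filter

namespace Crest.Agent.X212.Lin97
open An An.Pre Cyf70 Nd18 Crt72 Sob92 Map77
open Wz78 (nab nabE SA)

variable {E3 : Type} [NormedAddCommGroup E3] [NormedSpace ℝ E3] [FiniteDimensional ℝ E3]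
  [MeasurableSpace E3] [BorelSpace E3]
  {H3 : Type} [TopologicalSpace H3] {I3 : ModelWithCorners ℝ E3 H3} [I3.Boundaryless]
  {Y : Type} [TopologicalSpace Y] [ChartedSpace H3 Y] [IsManifold I3 ∞ Y] [T2Space Y]
  [MeasurableSpace Y] [BorelSpace Y] [SecondCountableTopology Y] [CompactSpace Y]
  {κ : Type} [Fintype κ] {lam : Type} [Fintype lam]
  {D : YD I3 Y κ lam} {β : YC Y κ lam} {x : Y}

variable (D β) in
/-- the coefficients of the gauge operator -/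
def cut0 : Op Y κ β.m.A (Cf κ (Fin β.m.N)) :=
  cut D.F.toPre β.m.pg (ps (pc D β) (pv D β)) (fun a x => σ0 (fun a b => D.F.P a b x) a)
    fun x => l0 (base (cn β) (fun y => (2 : ℝ) • β.Φ y) x)

variable (D β) in
/-- `ξ ↦ (-∇ ξ, 2 ξ Φ)` -/
abbrev A0 : Op Y κ β.m.A (Cf κ (Fin β.m.N)) :=
  ⟨β.m.pg, ps (pc D β) (pv D β), (cut0 D β).σ, (cut0 D β).B⟩

theorem pc_ea (a : κ) (ξ : β.m.A) : pc D β x (ea _ (fun a b => D.F.P a b x) a (β.m.pg x ξ)) =
    ea _ (fun a b => D.F.P a b x) a (β.m.pg x ξ) :=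
  pc_fix (fun _ => Submodule.smul_mem _ _ (Wz78.pg_mem x ξ)) fun b => by
    simp only [ea_apply, smul_smul, ← Finset.sum_smul, (Wz78.frPr D.F x).idem]

theorem σ_A0 (a : κ) (ξ : β.m.A) :
    (cut0 D β).σ a x ξ = -i1 _ _ (ea _ (fun a b => D.F.P a b x) a (β.m.pg x ξ)) :=
  ext2 (by simp [cut0, cut, σ0, pc_ea]) (by simp [cut0, cut, σ0])

theorem cliffL_A0 : (A0 D β).CliffL D.F := fun a b x v w => by
  have e : ∀ a b, ∑ c, D.F.P c a x * D.F.P c b x = D.F.P a b x := fun a b => by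
    simp only [← (Wz78.frPr D.F x).idem a b, fun c => D.F.P_symm c a x]
  simp only [σ_A0, inner_neg_neg, inner2, f2_i1, s2_i1, inner_zero_left, add_zero,
    inner_fm (X := β.m.A), ea_apply, real_inner_smul_left, real_inner_smul_right, ← mul_assoc,
    mul_comm (D.F.P _ b x)]
  rw [← prj_pg.symm, prj_pg.idem]
  simp only [mul_right_comm _ ⟪β.m.pg x v, w⟫_ℝ, ← Finset.sum_mul, e]
  ring

namespace Hy
variable (h : Hy D β)
include h

theorem good : ∃ C, D.F.Tame C ∧ (A0 D β).Good D.F C := by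
  let K := cb (fun _ : Unit => D.F.toPre) univ
  have hP : ∀ a b, K.mem fun _ => D.F.P a b := fun a b _ _ => Cb_of_compact (D.F.P_sm a b)
  have o := Cls.op.cut (K := K) (p := fun _ => β.m.pg) (q := fun _ => ps (pc D β) (pv D β))
    (σ := fun _ a x => σ0 (fun a b => D.F.P a b x) a)
    (B := fun _ x => l0 (base (cn β) (fun y => (2 : ℝ) • β.Φ y) x))
    (fun _ _ => h.cb_pg) (fun _ _ => Cb_ps h.cb_pc h.cb_pv)
    (fun a => Cls.neg (Cls.comp (K.const _) (Cls.tp fun b => Cls.smul (hP b a) (K.const _))))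
    (Cls.clm _ (Cls.base (fun a _ _ => Cb_of_compact (h.sm_cn a))
      fun _ _ => Cb_smul (Cb_const _) h.cb_Φ))
  refine good_of h.tame.choose_spec (o.p () trivial) (o.q () trivial) (fun a => o.σ a () trivial)
    (o.B () trivial) (Alg.cut _ prj_pg (prj_pc.ps h.prj_pv) fun a x => ?_)
  ext1 v
  refine ext2 (fm_ext fun s => ?_) (by simp [σ0])
  have e : ∑ b, D.F.P a b x * D.F.P s b x = D.F.P s a x := by
    simp only [← (Wz78.frPr D.F x).idem s a, D.F.P_symm a, mul_comm]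
  simp [σ0, ea_apply, smul_smul, ← Finset.sum_smul, e]

theorem app_A0 (ξ : Sec I3 β.m.pg) (x : Y) : (A0 D β).app D.F ξ.1 x =
    i1 _ _ (dga D β ξ.1 x) + i2 _ _ ((2 : ℝ) • dgp β ξ.1 x) := by
  refine (op_cut D.F.toPre h.sm_pg ξ.2.1 ξ.2.2.2 x).trans ?_
  have e : D.F.op (fun a x => σ0 (fun a b => D.F.P a b x) a)
      (fun x => l0 (base (cn β) (fun y => (2 : ℝ) • β.Φ y) x)) ξ.1 x =
      i1 _ _ (dga D β ξ.1 x) + i2 _ _ ((2 : ℝ) • dgp β ξ.1 x) := by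
    refine ext2 (fm_ext fun a => ?_) (by simp [Pre.op, σ0, fp_l0, dgp])
    simp [Pre.op, σ0, fa_l0, ea_apply, Ell97.sum_P_D, dga, nab, an, Md.adW, cn, ← D_def, add_comm]
  rw [e]
  exact ext2 (by simp [h.pc_dga]) (by simp [h.pv_dgp])

theorem sm_sga {α : Y → Fm κ β.m.A} (hα : Sm I3 α) : Sm I3 (sga D β α) := fun x =>
  SA.sum _ fun a _ => (Wz78.sm_nab h.sm_an a (fun y => SA.clm (pj _ a) (hα y)) x).add
    (SA.smul (D.F.dv_sm a x) (SA.clm (pj _ a) (hα x)))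

theorem sm_sgp {φ : Y → β.m.V} (hφ : Sm I3 φ) : Sm I3 (sgp β φ) := fun x =>
  SA.app (h.sm_pg x) (SA.clm hsL (Wz78.sa_rk1 (hφ x) (h.sm_Φ x)))

theorem sga_g {α : Y → Fm κ β.m.A} (hα : Sm I3 α) (hc : ∀ y, pc D β y (α y) = α y) (x : Y) :
    sga D β α x ∈ β.m.gS x :=
  Submodule.sum_mem _ fun a _ => Submodule.add_mem _
    (h.nab_g (fun y => SA.clm (pj _ a) (hα y)) (fun y => pc_g (hc y) a) a x)
    (Submodule.smul_mem _ _ (pc_g (hc x) a))

theorem adj_A0 (w : Sec I3 (ps (pc D β) (pv D β))) : ((A0 D β).adj D.F).app D.F w.1 =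
    fun x => sga D β (fun y => fa (w.1 y)) x + (2 : ℝ) • sgp β (fun y => fp (w.1 y)) x := by
  obtain ⟨C, hF, hA⟩ := h.good
  have s1 : Sm I3 fun y => fa (w.1 y) := fun y => SA.clm fa (w.2.1 y)
  have s2 : Sm I3 fun y => fp (w.1 y) := fun y => SA.clm fp (w.2.1 y)
  have s3 := (h.sm_sga s1).add ((show Sm I3 fun _ => (2 : ℝ) from contMDiff_const).smul (h.sm_sgp s2))
  refine adj_eq hF hA w ⟨_, sec_mk s3 fun x => Wz78.pg_of_mem (Submodule.add_mem _
    (h.sga_g s1 (fun y => maps_f2 y _ (w.2.2.2 y)) x)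
    (Submodule.smul_mem _ _ (Wz78.pg_mem x _)))⟩ fun u => ?_
  have s4 : ∀ a, Sm I3 fun y => ⟪u.1 y, fa (w.1 y) a⟫_ℝ := fun a y =>
    SA.inner (u.2.1 y) (SA.clm (pj _ a) (s1 y))
  have c := fun a => HasCompactSupport.of_compactSpace fun y => ⟪u.1 y, fa (w.1 y) a⟫_ℝ
  have i := Wz78.integral_dvg (F := D.F) s4 c
  refine Eq.trans ?_ ((integral_sub (D.F.integrable_inner u.2.1.continuous u.2.2.1 s3.continuous)
    (Wz78.integ_dvg s4 c)).trans (by rw [i, sub_zero]; rfl))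
  refine integral_congr_ae (.of_forall fun x => ?_)
  have e := fun a => Wz78.dv_inner (e := D.F.e) (A := an β) a (h.sk_an a x) (u.2.1 x)
    (SA.clm (pj _ a) (s1 x))
  simp only [pj_apply] at e
  simp only [h.app_A0, inner2, map_add, f2_i1, f2_i2, s2_i1, s2_i2, add_zero, zero_add,
    Wz78.dvg, e, Pi.add_apply, inner_add_right, sga, sgp, dga, dgp, Md.q, inner_sum,
    real_inner_smul_left, real_inner_smul_right, ← prj_pg.symm, u.2.2.2 x, Wz78.inner_rk1,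
    inner_fm (X := β.m.A), inner_neg_left, Finset.sum_add_distrib, Finset.sum_neg_distrib,
    Pi.smul_apply']
  ring

variable (j : ℕ)

theorem rep_A0 : D.F.Rep ((A0 D β).H D.F j) ((A0 D β).app D.F) :=
  (rep_OpH h.good.choose_spec.2 j).1

theorem rep_A1 : D.F.Rep (k := j + 1) (j := j) (p := ps (pc D β) (pv D β)) (q := β.m.pg)
    (Ell97.Hs D.F (A0 D β) j) (((A0 D β).adj D.F).app D.F) :=
  (rep_OpH (Ell97.good_adj h.good.choose_spec.1 h.good.choose_spec.2).choose_spec j).1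

theorem rep_dga : D.F.Rep (D.F.lift (j + 1) j β.m.pg (pc D β) (dga D β)) (dga D β) :=
  rep_lift (RepT_comp rep_fH (h.rep_A0 j)) fun u => funext fun x => by simp [h.app_A0]

theorem rep_dgp : D.F.Rep (D.F.lift (j + 1) j β.m.pg (pv D β) (dgp β)) (dgp β) :=
  rep_lift (RepT_smul (1 / 2 : ℝ) (RepT_comp rep_sH (h.rep_A0 j))) fun u => funext fun x => by
    simp [h.app_A0, smul_smul]

theorem rep_sga : D.F.Rep (D.F.lift (j + 1) j (pc D β) β.m.pg (sga D β)) (sga D β) :=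
  rep_lift (RepT_comp (h.rep_A1 j) rep_iH1) fun u => funext fun x =>
    (congrFun (h.adj_A0 ⟨_, RepT_mem (rep_iH1 (F := D.F.toPre) (k := 0)) u⟩) x).trans (by
      simp [sgp, Md.q, rk1])

theorem rep_sgp : D.F.Rep (D.F.lift (j + 1) j (pv D β) β.m.pg (sgp β)) (sgp β) :=
  rep_lift (RepT_smul (1 / 2 : ℝ) (RepT_comp (h.rep_A1 j) rep_iH2)) fun u => funext fun x =>
    (congrArg ((1 / 2 : ℝ) • ·)
      (congrFun (h.adj_A0 ⟨_, RepT_mem (rep_iH2 (F := D.F.toPre) (k := 0)) u⟩) x)).trans (by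
      simp [sga, nab, smul_smul])

/-- parallel sections have constant length -/
theorem norm_par {ξ : Y → β.m.A} (hs : Sm I3 ξ) (h0 : dga D β ξ = 0) (x y : Y) :
    ‖ξ x‖ = ‖ξ y‖ := by
  have := h.conn
  have e : ∀ a z, nab I3 D.F.e (an β) a ξ z = 0 := fun a z =>
    neg_eq_zero.1 (congrArg (fun α : Fm κ β.m.A => α a) (congrFun h0 z))
  obtain ⟨t, ht⟩ := Abel74.const_of_D (F := D.F) isOpen_univ isPreconnected_univ
    (fun x _ => SA.inner (hs x) (hs x)) fun a x _ => by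
      rw [D_def, Wz78.dv_inner (A := an β) a (h.sk_an a x) (hs x) (hs x), e]
      simp
  rw [norm_eq_sqrt_real_inner, norm_eq_sqrt_real_inner, ht x trivial, ht y trivial]

theorem norm_g {ξ : β.m.A} (hξ : ξ ∈ β.m.gS x) : ‖opL ξ (β.Φ x)‖ = ‖ξ‖ / 4 * ‖β.Φ x‖ := by
  have e : ‖opL ξ (β.Φ x)‖ = ‖ξ‖ / 4 * ‖β.m.p x (β.Φ x)‖ :=
    (Std94.norm_g_apply h.hB (h.px x) hξ (β.Φ x) :)
  rw [e, h.p_pv (h.pv_Φ x)]

/-- a parallel section of `g` spans a parallel line -/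
theorem lin_of (ξ : Sec I3 β.m.pg) (h0 : dga D β ξ.1 = 0) (hx : ξ.1 x ≠ 0) :
    Lin D.Z (cy β) univ := by
  have n : ∀ y, ⟪ξ.1 y, ξ.1 y⟫_ℝ = ‖ξ.1 x‖ ^ 2 := fun y => by
    rw [real_inner_self_eq_norm_sq, h.norm_par ξ.2.1 h0 y x]
  have n0 : ‖ξ.1 x‖ ^ 2 ≠ 0 := pow_ne_zero _ (norm_ne_zero_iff.2 hx)
  have e : ∀ a z, nab (IC I3) D.Z.e (fun a z => β.m.adW β.W a z.1) a (fun z => ξ.1 z.1) z = 0 := by
    rintro (_ | a) z
    · rw [nab_cy0 _ ξ.2.1, Md.adW, h.tmp, ← Wz78.adcL_apply, map_zero]; rfl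
    · rw [nab_cy _ ξ.2.1]
      exact neg_eq_zero.1 (congrArg (fun α : Fm κ β.m.A => α a) (congrFun h0 z.1))
  let π : Y × ℝ → CL β.m.A β.m.A := fun z => (‖ξ.1 x‖ ^ 2)⁻¹ • rk1 (ξ.1 z.1) (ξ.1 z.1)
  have s := sm_fst ξ.2.1
  have sπ : Sm (IC I3) π := fun z => (show SA (IC I3) (fun _ => (‖ξ.1 x‖ ^ 2)⁻¹) z from
    contMDiffAt_const).smul (SA.app (SA.clm rkL (s z)) (s z))
  have a1 : ∀ z v, π z v = ((‖ξ.1 x‖ ^ 2)⁻¹ * ⟪ξ.1 z.1, v⟫_ℝ) • ξ.1 z.1 := fun z v => by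
    simp only [π, smul_apply, Wz78.rk1_apply, smul_smul]
  have a2 : ∀ z (r : ℝ), π z (r • ξ.1 z.1) = r • ξ.1 z.1 := fun z r => by
    rw [map_smul, a1, n, inv_mul_cancel₀ n0, one_smul]
  have a3 : ∀ z, π z * π z = π z := fun z => ContinuousLinearMap.ext fun v => by
    rw [mul_apply_eq_comp, a1 z v, a2]
  have a4 : ∀ z, Sym (π z) := fun z v w => by
    simp only [a1, real_inner_smul_left, real_inner_smul_right, real_inner_comm v]; ring
  refine ⟨π, sπ.contMDiffOn, fun z _ => ⟨a4 z, a3 z, ?_, ?_, fun a => ?_⟩⟩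
  · have : β.m.pg z.1 * π z = π z := ContinuousLinearMap.ext fun v => by
      rw [mul_apply_eq_comp, a1, map_smul, ξ.2.2.2]
    exact this
  · have : LinearMap.trace ℝ _ (π z : β.m.A →ₗ[ℝ] β.m.A) = 1 := by
      have := LinearMap.trace_smulRight (R := ℝ) (innerSL ℝ (ξ.1 z.1) : β.m.A →ₗ[ℝ] ℝ) (ξ.1 z.1)
      refine (map_smul _ _ _).trans ((congrArg _ (this.trans (n z.1))).trans (inv_mul_cancel₀ n0))
    exact this
  · refine Wz78.proj_par (e := D.Z.e) (A := fun a z => β.m.adW β.W a z.1) (sπ z) a3 a4 a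
      (Wz78.adc_skw (h.hC.sk a z)) fun v => ?_
    simp only [a1]
    rw [Wz78.nab_smul a (SA.mul contMDiffAt_const (SA.inner (s z) contMDiffAt_const)) (s z), e,
      smul_zero, add_zero, ← a1, a2]

theorem ker_A0 (hn : (∃ y, β.Φ y ≠ 0) ∨ ¬Lin D.Z (cy β) univ) :
    Ell97.kerS D.F (A0 D β) = ⊥ := by
  refine (Submodule.eq_bot_iff _).2 fun ξ hξ => Subtype.ext (funext fun x => by_contra fun hx => ?_)
  have e := fun y => (h.app_A0 ξ y).symm.trans (congrFun hξ y)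
  have e1 : dga D β ξ.1 = 0 := funext fun y => by simpa using congrArg (f2 _ _) (e y)
  rcases hn with ⟨y, hy⟩ | hn
  · have e2 : opL (ξ.1 y) (β.Φ y) = 0 := by simpa [dgp] using congrArg (s2 _ _) (e y)
    have e3 := h.norm_g (pg_g (ξ.2.2.2 y))
    rw [e2, norm_zero, h.norm_par ξ.2.1 e1 y x] at e3
    exact absurd e3 (mul_pos (by have := norm_pos_iff.2 hx; positivity) (norm_pos_iff.2 hy)).ne
  · exact hn (h.lin_of ξ e1 hx)

theorem bij (hn : (∃ y, β.Φ y ≠ 0) ∨ ¬Lin D.Z (cy β) univ) :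
    Bijective (sg D β j ∘L d0 D β 1 (j + 1)) := by
  obtain ⟨C, hF, hA⟩ := h.good
  have e := RepT_eq (RepT_add (RepT_smul (1 / 4 : ℝ) (RepT_comp (h.rep_sga j) (h.rep_dga (j + 1))))
      (RepT_comp (h.rep_sgp j) (h.rep_dgp (j + 1))))
    (RepT_smul (1 / 4 : ℝ) (RepT_comp (h.rep_A1 j) (h.rep_A0 (j + 1)))) fun u => funext fun x => by
      have e : ((A0 D β).adj D.F).app D.F ((A0 D β).app D.F u.1) x = _ :=
        congrFun (h.adj_A0 ⟨_, RepT_mem (h.rep_A0 0) u⟩) x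
      simp only [h.app_A0, map_add, f2_i1, f2_i2, s2_i1, s2_i2, add_zero, zero_add] at e
      simp only [Pi.add_apply, Pi.smul_apply, e, sgp, Md.q, ← rkL_apply, map_smul, smul_apply]
      module
  have b := (MulAction.bijective (Units.mk0 (1 / 4 : ℝ) (by norm_num))).comp
    (Ell97.LL_bij hF hA cliffL_A0 (h.ker_A0 hn) j)
  convert b using 1
  funext η
  refine Eq.trans ?_ (DFunLike.congr_fun e η)
  simp [sg, d0]

end Hy

end Crest.Agent.X212.Lin97
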