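import Crest.Agent.X212.Ell97.Main
import Crest.Agent.X212.Map77.Cls

/-! Row 212, CRIT-LIN (helper97): generic lemmas on closed manifolds. -/

set_option autoImplicit false
set_option linter.unusedSectionVars false
noncomputable section
open scoped Manifold ContDiff Topology InnerProductSpace
open MeasureTheory Set Function Filter Module

namespace Crest.Agent.X212.Lin97
open An An.Pre Sob92 Ell97

variable {E : Type} [NormedAddCommGroup E] [NormedSpace ℝ E] [FiniteDimensional ℝ E]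
  [MeasurableSpace E] [BorelSpace E]
  {HM : Type} [TopologicalSpace HM] {I : ModelWithCorners ℝ E HM}
  {M : Type} [TopologicalSpace M] [ChartedSpace HM M] [IsManifold I ∞ M]
  [MeasurableSpace M] {ι : Type} [Fintype ι]
  {U U' V W : Type} [NormedAddCommGroup U] [InnerProductSpace ℝ U]
  [NormedAddCommGroup U'] [InnerProductSpace ℝ U']
  [NormedAddCommGroup V] [InnerProductSpace ℝ V] [NormedAddCommGroup W] [InnerProductSpace ℝ W]
  [T2Space M] [BorelSpace M] [SecondCountableTopology M]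

section rep
variable {F : Pre I M ι} {k j : ℕ} {p : M → V →L[ℝ] V} {q : M → W →L[ℝ] W} {r : M → U →L[ℝ] U}
  {r' : M → U' →L[ℝ] U'}

theorem lift_eq {A : F.H k p →L[ℝ] F.H j q} {T T' : (M → V) → M → W} (h : F.Rep A T')
    (e : ∀ u : Sec I p, T' u.1 = T u.1) : F.lift k j p q T = A := (RepT_congr h e).liftT_eq

theorem rep_lift {A : F.H k p →L[ℝ] F.H j q} {T T' : (M → V) → M → W} (h : F.Rep A T')
    (e : ∀ u : Sec I p, T' u.1 = T u.1) : F.Rep (F.lift k j p q T) T :=
  (lift_eq h e).symm ▸ RepT_congr h e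

/-- pointwise identities for `L²` products -/
theorem inner_rep {A : F.H k p →L[ℝ] F.H 0 r} {B : F.H j q →L[ℝ] F.H 0 r}
    {A' : F.H k p →L[ℝ] F.H 0 r'} {B' : F.H j q →L[ℝ] F.H 0 r'} {T : (M → V) → M → U}
    {S : (M → W) → M → U} {T' : (M → V) → M → U'} {S' : (M → W) → M → U'} (hA : F.Rep A T)
    (hB : F.Rep B S) (hA' : F.Rep A' T') (hB' : F.Rep B' S') (c : ℝ)
    (h : ∀ (u : Sec I p) (v : Sec I q) x, ⟪T u.1 x, S v.1 x⟫_ℝ = c * ⟪T' u.1 x, S' v.1 x⟫_ℝ)
    (x : F.H k p) (y : F.H j q) : ⟪A x, B y⟫_ℝ = c * ⟪A' x, B' y⟫_ℝ := by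
  induction x, y using H_ind₂ with
  | hP => exact isClosed_eq (by fun_prop) (by fun_prop)
  | h u v =>
    simp only [RepT_toH hA, RepT_toH hB, RepT_toH hA', RepT_toH hB', inner_toH, ip, h,
      integral_const_mul]

end rep

variable [FiniteDimensional ℝ V] [FiniteDimensional ℝ W] [I.Boundaryless]
  {F : Fr I M ι} {A : Op M ι V W} {C C' : ℕ → ℝ}

/-- the formal adjoint is determined by the integration by parts formula -/
theorem adj_eq (hF : F.Tame C) (hA : A.Good F C') (w : Sec I A.q) (v : Sec I A.p)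
    (h : ∀ u : Sec I A.p, F.ip 0 (A.app F u.1) w.1 = F.ip 0 u.1 v.1) :
    (A.adj F).app F w.1 = v.1 := by
  obtain ⟨_, hg⟩ := good_adj hF hA
  have e : F.toH 0 A.p (LS hg w) = F.toH 0 A.p v := H_ext fun u =>
    (inner_toH _ _ _ _ _).trans (((F.ip_comm _ _ _).trans ((adj_ip hA u (toT _ w)).symm.trans
      ((h u).trans (F.ip_comm _ _ _)))).trans (inner_toH _ _ _ _ _).symm)
  exact congrArg Subtype.val (toH_inj F 0 _ e)

/-- symmetric operators of Dirac type have index zero -/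
theorem fr_symm [CompactSpace M] {p B : M → V →L[ℝ] V} {σ : ι → M → V →L[ℝ] V} (hF : F.Tame C)
    (hA : (⟨p, p, σ, B⟩ : Op M ι V V).Good F C') (hc : (⟨p, p, σ, B⟩ : Op M ι V V).Cliff F)
    (hs : ∀ u w : Sec I p, F.ip 0 (F.op σ B u.1) w.1 = F.ip 0 u.1 (F.op σ B w.1)) (k : ℕ) :
    Fred93.Fr (F.opH k p p σ B) 0 := by
  have e : kerS F ((⟨p, p, σ, B⟩ : Op M ι V V).adj F) = kerS F ⟨p, p, σ, B⟩ :=
    Submodule.ext fun w => by
      rw [mem_kerS, adj_eq hF hA w (LS hA w) fun u => hs u w]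
      rfl
  exact (fr hF hA hc k).cast (by rw [e]; exact sub_self _)

end Crest.Agent.X212.Lin97
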