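import Crest.Agent.X212.Crt72.Props
import Crest.Agent.X212.Lin97.Gen
import Crest.Agent.X212.Std94.Smo
import Crest.Agent.X212.Wz78.Par
import Crest.Agent.X212.Abel74.Gap

/-! Row 212, CRIT-LIN (helper97): the bundles on the cross-section, the gauge operator. -/

set_option autoImplicit false
set_option linter.unusedSectionVars false
noncomputable section
open scoped Manifold ContDiff Topology InnerProductSpace
open MeasureTheory Set Function Filter

namespace Crest.Agent.X212.Lin97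
open An An.Pre Cyf70 Nd18 Crt72 Sob92 Map77
open Wz78 (nab nabE SA)

variable {E3 : Type} [NormedAddCommGroup E3] [NormedSpace ℝ E3] [FiniteDimensional ℝ E3]
  [MeasurableSpace E3] [BorelSpace E3]
  {H3 : Type} [TopologicalSpace H3] {I3 : ModelWithCorners ℝ E3 H3} [I3.Boundaryless]
  {Y : Type} [TopologicalSpace Y] [ChartedSpace H3 Y] [IsManifold I3 ∞ Y] [T2Space Y]
  [MeasurableSpace Y] [BorelSpace Y] [SecondCountableTopology Y] [CompactSpace Y]
  {κ : Type} [Fintype κ] {lam : Type} [Fintype lam]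
  {D : YD I3 Y κ lam} {β : YC Y κ lam} {x : Y}

section lin
variable {A : Type} [NormedAddCommGroup A] [InnerProductSpace ℝ A]
@[simp] theorem up_none (α : Fm κ A) : up κ A α none = 0 := rfl
@[simp] theorem up_some (α : Fm κ A) (a : κ) : up κ A α (some a) = α a := rfl
@[simp] theorem dw_apply (α : Fm (Option κ) A) (a : κ) : dw κ A α a = α (some a) := rfl
@[simp] theorem onv_apply (T : CL A A) (α : Fm κ A) (a : κ) : onv κ T α a = T (α a) := rfl
@[simp] theorem ij_none (v : A) : ij A (none : Option κ) v none = v := by simp [ij]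
@[simp] theorem ij_some (v : A) (a : κ) : ij A (none : Option κ) v (some a) = 0 := by simp [ij]
end lin

theorem sec_mk {V : Type} [NormedAddCommGroup V] [InnerProductSpace ℝ V] {p : Y → V →L[ℝ] V}
    {u : Y → V} (hu : Sm I3 u) (h : ∀ x, p x (u x) = u x) : u ∈ Sec I3 p :=
  ⟨hu, HasCompactSupport.of_compactSpace u, h⟩

theorem prj_pg : Prj β.m.pg := ⟨Wz78.pg_pg, Wz78.inner_pg⟩

theorem prj_pc : Prj (pc D β) :=
  ⟨fun x => idx_idem (Wz78.frPr D.F x).idem (prj_pg.idem x),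
    fun x => idx_symm (Wz78.frPr D.F x).symm (prj_pg.symm x)⟩

theorem pc_g {α : Fm κ β.m.A} (h : pc D β x α = α) (a : κ) : α a ∈ β.m.gS x := by
  rw [← h, pc, ← T_idx (prj_pg.idem x)]
  exact Wz78.pg_mem x _

theorem pc_P {α : Fm κ β.m.A} (h : pc D β x α = α) (a : κ) : ∑ b, D.F.P a b x • α b = α a := by
  conv_rhs => rw [← h, pc, idx_apply]
  simp only [Wz78.pg_of_mem (pc_g h _)]

theorem pc_fix {α : Fm κ β.m.A} (h1 : ∀ a, α a ∈ β.m.gS x)
    (h2 : ∀ a, ∑ b, D.F.P a b x • α b = α a) : pc D β x α = α :=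
  fm_ext fun a => by simp only [pc, idx_apply, Wz78.pg_of_mem (h1 _), h2]

theorem pg_g {ξ : β.m.A} (h : β.m.pg x ξ = ξ) : ξ ∈ β.m.gS x := h ▸ Wz78.pg_mem x ξ

theorem fa_ph (w : Cf (Option κ) (Fin β.m.N)) (a : Option κ) :
    fa (ph D β x w) a = ∑ b, cP D.F.P a b (x, 0) • β.m.pg x (fa w b) :=
  (congrArg (fun α : Fm (Option κ) β.m.A => α a) (f2_ps x w)).trans (idx_apply _ _ _ a)

theorem fa_ph_none (w : Cf (Option κ) (Fin β.m.N)) :
    fa (ph D β x w) none = β.m.pg x (fa w none) := by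
  simp [fa_ph, cP]

theorem fa_ph_some (w : Cf (Option κ) (Fin β.m.N)) (a : κ) :
    fa (ph D β x w) (some a) = pc D β x (dw κ _ (fa w)) a := by
  simp [fa_ph, cP, pc]

theorem fp_ph (w : Cf (Option κ) (Fin β.m.N)) : fp (ph D β x w) = pv D β x (fp w) := s2_ps _ _

theorem nab_cy {V : Type} [NormedAddCommGroup V] [NormedSpace ℝ V] (A : Option κ → Y → V →L[ℝ] V)
    {u : Y → V} (hu : Sm I3 u) (a : κ) (z : Y × ℝ) :
    nab (IC I3) D.Z.e (fun a z => A a z.1) (some a) (fun z => u z.1) z =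
      nab I3 D.F.e (fun a => A (some a)) a u z.1 :=
  congrArg (· + _) (congrFun (D_some_fst D.F.toPre hu a) z)

theorem nab_cy0 {V : Type} [NormedAddCommGroup V] [NormedSpace ℝ V] (A : Option κ → Y → V →L[ℝ] V)
    {u : Y → V} (hu : Sm I3 u) (z : Y × ℝ) :
    nab (IC I3) D.Z.e (fun a z => A a z.1) none (fun z => u z.1) z = A none z.1 (u z.1) :=
  (congrArg (· + _) (congrFun (D_none_fst D.F.toPre hu) z)).trans (zero_add _)

variable (D β) in
/-- the standing hypotheses at a base point -/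
structure Hy : Prop extends HY D, D.Adm β

namespace Hy
variable (h : Hy D β)
include h

theorem hB : D.B.OK (IC I3) := h.ok.B
theorem hm : (cy β).m.OK (IC I3) D.B := h.adm.ok
theorem hC : (cy β).m.IsConn D.B D.G (cy β).W := h.adm.conn
theorem px (x : Y) : Std94.PMx D.B (cy β).m (x, 0) := Std94.pmx h.hm _
theorem tame : ∃ C, D.F.Tame C := Cht98.exists_tame D.F (by rw [h.dim]; norm_num)
theorem sup : Sup D.F.toPre (h.tame.choose 0) := Sup.of_tame h.tame.choose_spec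

theorem sm_pg : Sm I3 β.m.pg := sm_slice_fst (Std94.sm_pg h.hB h.hm) 0
theorem sm_pv : Sm I3 (pv D β) := sm_slice_fst (Std94.sm_pp h.hB h.hm) 0
theorem sm_Φ : Sm I3 β.Φ := sm_slice_fst h.adm.sm 0
theorem sm_cn (a : κ) : Sm I3 (cn β a) := sm_slice_fst (h.hC.cc.sm (some a)) 0
theorem sm_an (a : κ) : Sm I3 (an β a) := fun x => SA.clm Wz78.adcL (h.sm_cn a x)
theorem cb_pg : D.F.Cb β.m.pg := Cb_of_compact h.sm_pg
theorem cb_pv : D.F.Cb (pv D β) := Cb_of_compact h.sm_pv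
theorem cb_Φ : D.F.Cb β.Φ := Cb_of_compact h.sm_Φ
theorem cb_pc : D.F.Cb (pc D β) :=
  Cls.idx (K := cb (fun _ : Unit => D.F.toPre) univ) (S := fun _ x a b => D.F.P a b x)
    (fun a b _ _ => Cb_of_compact (D.F.P_sm a b)) (fun _ _ => h.cb_pg) () trivial
theorem sk_an (a : κ) (x : Y) : Skw (an β a x) := Wz78.adc_skw (h.hC.sk (some a) (x, 0))

theorem con_an : Wz78.Con I3 D.F.P (an β) := ⟨h.sm_an, fun a x => by
  have := (Wz78.con_adW h.hC).proj (some a) (x, 0)
  rw [Fintype.sum_option] at this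
  exact ((zero_add _).symm.trans (congrArg (· + _) (zero_smul ℝ _).symm)).trans this⟩

theorem prj_pv : Prj (pv D β) := by
  refine ⟨fun x v => ?_, fun x => (Std94.pp_sym h.hB (h.px x) :)⟩
  have e : pv D β x * pv D β x = pv D β x := (Std94.pp_pp h.hB (h.px x) :)
  rw [← mul_apply_eq_comp, e]

theorem pv_Φ (x : Y) : pv D β x (β.Φ x) = β.Φ x := h.adm.pos (x, 0)

theorem p_pv {v : β.m.V} (hv : pv D β x v = v) : β.m.p x v = v := by
  have e : β.m.p x * pv D β x = pv D β x := (Std94.p_pp h.hB (h.px x) :)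
  rw [← hv, ← mul_apply_eq_comp, e]

theorem pv_g {ξ : β.m.A} (hξ : ξ ∈ β.m.gS x) {v : β.m.V} (hv : pv D β x v = v) :
    pv D β x (opL ξ v) = opL ξ v := by
  have e : opL ξ * pv D β x = pv D β x * opL ξ := Std94.g_pp h.hB (h.px x) hξ
  rw [← mul_apply_eq_comp, ← e, mul_apply_eq_comp, hv]

theorem pv_J {v : β.m.V} (hv : pv D β x v = v) : pv D β x (β.m.J v) = β.m.J v := by
  have e : β.m.J * pv D β x = pv D β x * β.m.J := (Std94.J_pp (h.px x) :)
  rw [← mul_apply_eq_comp, ← e, mul_apply_eq_comp, hv]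

theorem nab_g {ξ : Y → β.m.A} (hs : Sm I3 ξ) (hg : ∀ y, ξ y ∈ β.m.gS y) (a : κ) (x : Y) :
    nab I3 D.F.e (an β) a ξ x ∈ β.m.gS x :=
  nab_cy (D := D) (β.m.adW β.W) hs a (x, 0) ▸
    Wz78.nab_mem_g h.hm h.hC (some a) (sm_fst hs (x, 0)) fun z => hg z.1

theorem pc_dga (ξ : Sec I3 β.m.pg) (x : Y) : pc D β x (dga D β ξ.1 x) = dga D β ξ.1 x :=
  pc_fix (fun a => Submodule.neg_mem _ (h.nab_g ξ.2.1 (fun y => pg_g (ξ.2.2.2 y)) a x)) fun a => by
    simp only [dga, smul_neg, Finset.sum_neg_distrib, (Wz78.frm D.F).projN h.con_an]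

theorem pv_dgp (ξ : Sec I3 β.m.pg) (x : Y) : pv D β x (dgp β ξ.1 x) = dgp β ξ.1 x :=
  h.pv_g (pg_g (ξ.2.2.2 x)) (h.pv_Φ x)

/-- variations are admissible -/
theorem conn_cf (y : SP D β) : (cy β).m.IsConn D.B D.G (cy (cf y)).W := by
  have H := h.hm
  have C := h.hC
  have hg : ∀ (z : Y × ℝ) a, up κ _ (y.1.1 z.1) a ∈ β.m.gS z.1 := fun z a => by
    cases a with
    | none => exact Submodule.zero_mem _
    | some a => exact pc_g (y.1.2.2.2 z.1) a
  have c : Wz78.Con (IC I3) D.B.P fun a z => opL (up κ _ (y.1.1 z.1) a) := ⟨fun a z =>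
    SA.clm (opL ∘L pj _ a ∘L up κ _) (sm_fst y.1.2.1 z), fun a z => by
      rw [Fintype.sum_option]
      cases a with
      | none => simp [YD.B, cP]
      | some a =>
        simp only [YD.B, cP, up_none, map_zero, smul_zero, zero_add, up_some]
        simp only [← map_smul, ← map_sum, pc_P (y.1.2.2.2 z.1)]⟩
  refine ⟨C.cc.addA c (fun a z => (Wz78.g_p' H (hg z a)).trans (Wz78.g_p (hg z a)).symm)
    fun a b z => (Wz78.g_ρ (hg z a) b).symm, fun a z v w => ?_, fun a z => ?_, fun a z s => ?_⟩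
  · have h1 : ⟪β.W a z.1 v, w⟫_ℝ = -⟪v, β.W a z.1 w⟫_ℝ := C.sk a z v w
    have h2 := Wz78.g_skw (hg z a) v w
    exact (inner_add_left _ _ _).trans ((congrArg₂ (· + ·) h1 h2).trans
      ((neg_add _ _).symm.trans (congrArg Neg.neg (inner_add_right _ _ _).symm)))
  · have h1 : β.m.J * β.W a z.1 = β.W a z.1 * β.m.J := C.J a z
    have e : β.m.J * (β.W a z.1 + opL (up κ _ (y.1.1 z.1) a)) =
        (β.W a z.1 + opL (up κ _ (y.1.1 z.1) a)) * β.m.J := by
      rw [mul_add, add_mul, h1, Wz78.g_J (hg z a)]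
    exact e
  · refine Eq.trans (congrArg (_ + ·) ?_) (C.j a z s)
    have e : (β.W a z.1 + opL (up κ _ (y.1.1 z.1) a)) * β.m.j z.1 s -
        β.m.j z.1 s * (β.W a z.1 + opL (up κ _ (y.1.1 z.1) a)) =
        β.W a z.1 * β.m.j z.1 s - β.m.j z.1 s * β.W a z.1 := by
      rw [mul_add, add_mul, Wz78.g_j (hg z a) s, add_sub_add_right_eq_sub]
    exact e

theorem adm_cf (y : SP D β) : D.Adm (cf y) :=
  ⟨⟨h.hm, h.conn_cf y, sm_fst (h.sm_Φ.add y.2.2.1), fun z =>
    (map_add (pv D β z.1) _ _).trans (congrArg₂ (· + ·) (h.pv_Φ _) (y.2.2.2.2 _)), .inl rfl⟩,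
    fun x => (congrArg₂ (· + ·) (h.tmp x) (map_zero opL)).trans (add_zero _)⟩

theorem cf (y : SP D β) : Hy D (cf y) := ⟨h.toHY, h.adm_cf y⟩

/-- the gradient lies in the bundles -/
theorem pc_gA : pc D β x ((YF.z0 D).gA β x) = (YF.z0 D).gA β x := by
  have hB := h.hB
  have v : Vol (fun a b => D.B.P a b (x, 0)) fun a b c d => D.B.o a b c d (x, 0) :=
    ⟨hB.pr _, hB.rk _, fun a b c d => hB.o12 a b c d _, fun a b c d => hB.o23 a b c d _,
      fun a b c d => hB.o34 a b c d _, fun a b c d => hB.oP a b c d _, hB.onm _⟩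
  obtain ⟨ζ, e⟩ : ∃ ζ, (YF.z0 D).gA β x = WithLp.toLp 2 fun a => (1 / 2 : ℝ) •
      idx (sdm (fun a b => D.B.P a b (x, 0)) fun a b c d => D.B.o a b c d (x, 0)) (β.m.pg x) ζ
        (none, some a) :=
    ⟨_, congrArg (fun η : Fm (Option κ × Option κ) β.m.A =>
      WithLp.toLp 2 fun a : κ => (1 / 2 : ℝ) • η (none, some a))
      ((sub_zero _).trans (map_sub ((cy β).m.p2 D.B (x, 0)) _ _).symm)⟩
  rw [e]
  refine pc_fix (fun a => Submodule.smul_mem _ _ (pg_g (T_idx (prj_pg.idem x) _ _))) fun a => ?_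
  have := (v.sd_idx (β.m.pg x) ζ).pr' none (some a)
  rw [Fintype.sum_option] at this
  have e2 := ((zero_add _).symm.trans (congrArg (· + _) (zero_smul ℝ _).symm)).trans this
  simp only [smul_comm _ (1 / 2 : ℝ), ← Finset.smul_sum]
  exact congrArg _ e2

theorem pv_gP : pv D β x ((YF.z0 D).gP β x) = (YF.z0 D).gP β x := by
  have e := Wz78.dir_pp h.hB h.hm h.hC (h.adm.sm (x, 0))
  rw [funext h.adm.pos] at e
  have e2 := congrArg (fun T : En (Fin β.m.N) => T ((cy β).eD D.G pt0 (x, 0)))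
    (Wz78.pp_rho h.hB h.hm none (x, 0))
  refine (map_neg _ _).trans (congrArg Neg.neg (e2.trans (congrArg (β.m.ρ none x) ?_)))
  exact (congrArg _ (sub_zero _)).trans (e.symm.trans (sub_zero _).symm)

end Hy

end Crest.Agent.X212.Lin97
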